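import Vale.Agent.P252.Rigidity.General.Spec
import Vale.Agent.P252.Rigidity.Three.Glue
import Vale.Agent.P252.Rigidity.Piola
import Vale.Agent.P252.Rigidity.Sublevel

/-!
# Balanced caps in every dimension

`η = 1 - ũ/h`, `ψ = 1 + ((y - x₀)·Dũ - ũ)/h` with `ũ = u - u x₀ - p·(y - x₀)`.  A cap is balanced
with constant `β` if the reflection `x₀ - β (y - x₀)` of each of its points lies in it.  Then
`η ≤ 1 + 1/β`, the product of the volume of the cap with that of its polar is bounded, and the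
gradient image of `{ψ ≤ c}` lies in `c h` times the polar.
-/

namespace Vale.Agent.P252.General.Mass

open scoped ContDiff Matrix ENNReal Topology Pointwise
open MeasureTheory Set Filter Finset Rigidity
open Three (AM logDet)

noncomputable section

variable {n : ℕ}

/-- The polar of a set. -/
def polarSet (S : Set (Fin n → ℝ)) : Set (Fin n → ℝ) := {q | ∀ y ∈ S, q ⬝ᵥ y ≤ 1}

/-- The constant of the polar product. -/
def polarConst (n : ℕ) (β : ℝ) : ℝ := (4 * max 1 β⁻¹) ^ n

lemma polarConst_nonneg (n : ℕ) (β : ℝ) : 0 ≤ polarConst n β := by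
  unfold polarConst; positivity

/-- The volume of a compact balanced set times that of its polar is bounded. -/
theorem vol_mul_vol_polar_le {S : Set (Fin n → ℝ)} {β : ℝ} (hβ : 0 < β) (hS : IsCompact S)
    (hbal : ∀ y ∈ S, -β • y ∈ S) :
    volume S * volume (polarSet S) ≤ ENNReal.ofReal (polarConst n β) := by
  rcases S.eq_empty_or_nonempty with rfl | hne
  · simp
  set T : Set (Fin n → Fin n → ℝ) := Set.pi Set.univ fun _ => S with hT
  have hTc : IsCompact T := isCompact_univ_pi fun _ => hS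
  have hTne : T.Nonempty := ⟨fun _ => hne.choose, fun i _ => hne.choose_spec⟩
  obtain ⟨M₀, hM₀, hmax⟩ := hTc.exists_isMaxOn hTne
    (f := fun M : Fin n → Fin n → ℝ => |(Matrix.of M).det|)
    (Continuous.continuousOn (Continuous.abs (Continuous.matrix_det (by fun_prop))))
  set M : Matrix (Fin n) (Fin n) ℝ := Matrix.of M₀ with hM
  have hrow : ∀ i, M i ∈ S := fun i => hM₀ i (Set.mem_univ i)
  have hle : ∀ N : Matrix (Fin n) (Fin n) ℝ, (∀ i, N i ∈ S) → |N.det| ≤ |M.det| :=
    fun N hN => hmax (show (fun i => N i) ∈ T from fun i _ => hN i)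
  rcases eq_or_ne M.det 0 with h0 | h0
  · have hsub : S ⊆ (Submodule.span ℝ S : Set (Fin n → ℝ)) := Submodule.subset_span
    have htop : Submodule.span ℝ S ≠ ⊤ := by
      intro htop
      obtain ⟨b, hbS, hbspan, hbli⟩ := exists_linearIndependent ℝ S
      rw [htop] at hbspan
      let B := Module.Basis.mk hbli (by rw [Subtype.range_coe, hbspan])
      have hfin : b.Finite := hbli.setFinite
      have := hfin.fintype
      have hcard : Fintype.card b = n := by
        rw [← Module.finrank_eq_card_basis B, Module.finrank_fin_fun]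
      let e : Fin n ≃ b := (Fintype.equivFinOfCardEq hcard).symm
      have hli : LinearIndependent ℝ (fun i : Fin n => ((e i : b) : Fin n → ℝ)) :=
        hbli.comp e e.injective
      have hu := Matrix.linearIndependent_rows_iff_isUnit.1
        (show LinearIndependent ℝ (Matrix.of fun i : Fin n => ((e i : b) : Fin n → ℝ)).row from hli)
      rw [Matrix.isUnit_iff_isUnit_det, isUnit_iff_ne_zero] at hu
      have h1 := hle (Matrix.of fun i : Fin n => ((e i : b) : Fin n → ℝ)) fun i => hbS (e i).2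
      rw [h0, abs_zero] at h1
      exact hu (abs_eq_zero.1 (le_antisymm h1 (abs_nonneg _)))
    rw [measure_mono_null hsub (Measure.addHaar_submodule volume _ htop), zero_mul]
    exact zero_le
  have hpos : 0 < |M.det| := abs_pos.2 h0
  set b : ℝ := max 1 β⁻¹ with hb
  have hb1 : 1 ≤ b := le_max_left _ _
  -- the set lies in a parallelepiped
  have h1 : S ⊆ (Matrix.toLin' Mᵀ) '' Set.Icc (fun _ => (-1 : ℝ)) (fun _ => 1) := by
    intro s hs
    obtain ⟨c, hc⟩ : ∃ c : Fin n → ℝ, Mᵀ *ᵥ c = s := ⟨Mᵀ⁻¹ *ᵥ s, by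
      rw [Matrix.mulVec_mulVec, Matrix.mul_nonsing_inv _ (by
        rw [Matrix.det_transpose]; exact isUnit_iff_ne_zero.2 h0), Matrix.one_mulVec]⟩
    have hc' : s = ∑ k, c k • M k := by
      rw [← hc]
      ext i
      simp [Matrix.mulVec, dotProduct, mul_comm, Finset.sum_apply]
    have habs : ∀ i, |c i| ≤ 1 := by
      intro i
      have h := hle (M.updateRow i s) fun j => by
        rcases eq_or_ne j i with rfl | hj
        · rw [Matrix.updateRow_self]; exact hs
        · rw [Matrix.updateRow_ne hj]; exact hrow j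
      rw [hc', Matrix.det_updateRow_sum, smul_eq_mul, abs_mul] at h
      exact le_of_mul_le_mul_right (h.trans (le_of_eq (one_mul _).symm)) hpos
    exact ⟨c, ⟨fun i => (abs_le.1 (habs i)).1, fun i => (abs_le.1 (habs i)).2⟩, by
      rw [Matrix.toLin'_apply, hc]⟩
  have h2 : polarSet S ⊆ (Matrix.toLin' M) ⁻¹' Set.Icc (fun _ => -b) (fun _ => b) := by
    intro q hq
    have hv : ∀ i, (M *ᵥ q) i = q ⬝ᵥ M i := fun i => dotProduct_comm _ _
    refine ⟨fun i => ?_, fun i => ?_⟩
    · show -b ≤ Matrix.toLin' M q i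
      rw [Matrix.toLin'_apply, hv]
      have h := hq _ (hbal _ (hrow i))
      rw [dotProduct_smul, smul_eq_mul] at h
      have h4 : -(q ⬝ᵥ M i) ≤ β⁻¹ := by
        rw [← one_div, le_div_iff₀ hβ]; linarith
      linarith [le_max_right (1 : ℝ) β⁻¹]
    · show Matrix.toLin' M q i ≤ b
      rw [Matrix.toLin'_apply, hv]
      linarith [hq _ (hrow i)]
  have v1 := (measure_mono h1).trans (le_of_eq (Measure.addHaar_image_linearMap volume _ _))
  have v2 := (measure_mono (μ := volume) h2).trans (le_of_eq (Measure.addHaar_preimage_linearMap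
    volume (f := Matrix.toLin' M) (by rwa [LinearMap.det_toLin']) _))
  rw [LinearMap.det_toLin', Matrix.det_transpose, Real.volume_Icc_pi] at v1
  rw [LinearMap.det_toLin', Real.volume_Icc_pi] at v2
  refine (mul_le_mul' v1 v2).trans (le_of_eq ?_)
  rw [← ENNReal.ofReal_prod_of_nonneg (fun i _ => by norm_num),
    ← ENNReal.ofReal_prod_of_nonneg (fun i _ => by linarith),
    ← ENNReal.ofReal_mul (abs_nonneg _), ← ENNReal.ofReal_mul (abs_nonneg _),
    ← ENNReal.ofReal_mul (by positivity)]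
  congr 1
  simp only [Finset.prod_const, Finset.card_univ, Fintype.card_fin, polarConst, abs_inv,
    sub_neg_eq_add, ← hb]
  field_simp
  rw [← mul_pow]
  ring

variable {W : Set (Fin n → ℝ)} {u : (Fin n → ℝ) → ℝ} {x₀ p : Fin n → ℝ} {h β : ℝ}

@[simp] lemma capFun_self (u : (Fin n → ℝ) → ℝ) (x₀ p : Fin n → ℝ) : capFun u x₀ p x₀ = 0 := by
  simp [capFun]

lemma sm_capFun (hu : AM W u) : Sm W (capFun u x₀ p) :=
  (hu.sm.sub (sm_const _)).sub (sm_sum _ fun j _ =>
    (sm_const (p j)).mul ((contDiff_apply ℝ ℝ j).contDiffOn.sub (sm_const (x₀ j))))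

lemma sm_etaF (hu : AM W u) : Sm W (etaF u x₀ p h) :=
  (sm_const 1).sub ((sm_capFun hu).div_const h)

lemma sm_capGrad (hu : AM W u) (i : Fin n) : Sm W fun y => capGrad u x₀ p y i :=
  (sm_capFun hu).pd hu.isOpen i

lemma sm_psiF (hu : AM W u) : Sm W (psiF u x₀ p h) :=
  (sm_const 1).add (((sm_sum _ fun j _ =>
    ((contDiff_apply ℝ ℝ j).contDiffOn.sub (sm_const (x₀ j))).mul (sm_capGrad hu j)).sub
      (sm_capFun hu)).div_const h)

/-- The gradient of the cap function as a linear form. -/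
lemma capGrad_dot (hu : AM W u) {y : Fin n → ℝ} (hy : y ∈ W) (v : Fin n → ℝ) :
    capGrad u x₀ p y ⬝ᵥ v = fderiv ℝ u y v - p ⬝ᵥ v := by
  have hd := hu.sm.differentiableAt hu.isOpen hy
  have hlin : HasFDerivAt (fun z : Fin n → ℝ => p ⬝ᵥ (z - x₀))
      (∑ i, p i • (ContinuousLinearMap.proj i : (Fin n → ℝ) →L[ℝ] ℝ)) y :=
    HasFDerivAt.fun_sum fun i _ =>
      ((hasFDerivAt_apply (𝕜 := ℝ) i y).sub_const (x₀ i)).const_mul (p i)
  have hf : fderiv ℝ (capFun u x₀ p) y = fderiv ℝ u y -
      ∑ i, p i • (ContinuousLinearMap.proj i : (Fin n → ℝ) →L[ℝ] ℝ) :=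
    ((hd.hasFDerivAt.sub_const (u x₀)).sub hlin).fderiv
  have hcomp : ∀ i, capGrad u x₀ p y i = fderiv ℝ u y (Pi.single i 1) - p i := fun i => by
    show fderiv ℝ (capFun u x₀ p) y (Pi.single i 1) = _
    rw [hf]
    simp [Pi.single_apply]
  simp only [dotProduct, hcomp, sub_mul, Finset.sum_sub_distrib]
  congr 1
  conv_rhs => rw [pi_eq_sum_univ' v]
  simp [mul_comm]

/-- The gradient inequality for the cap function. -/
lemma capFun_tangent (hu : AM W u) (hc : Convex ℝ W) {y z : Fin n → ℝ} (hy : y ∈ W) (hz : z ∈ W) :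
    capFun u x₀ p y + capGrad u x₀ p y ⬝ᵥ (z - y) ≤ capFun u x₀ p z := by
  have h1 := gap_nonneg hu.isOpen hc hu.sm hu.pos hy hz
  have h2 : p ⬝ᵥ (z - y) = p ⬝ᵥ (z - x₀) - p ⬝ᵥ (y - x₀) := by
    rw [← dotProduct_sub, sub_sub_sub_cancel_right]
  rw [capGrad_dot hu hy, h2]
  simp only [tangentGap] at h1
  simp only [capFun]
  linarith

/-- The gradient of the cap function is injective. -/
lemma capGrad_injOn (hu : AM W u) (hc : Convex ℝ W) : InjOn (capGrad u x₀ p) W := by
  intro a ha b hb hab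
  by_contra hne
  have h1 := gap_pos hu.isOpen hc hu.sm hu.pos ha hb (Ne.symm hne)
  have h2 := gap_pos hu.isOpen hc hu.sm hu.pos hb ha hne
  have h3 := capGrad_dot (x₀ := x₀) (p := p) hu ha (b - a)
  have h4 := capGrad_dot (x₀ := x₀) (p := p) hu hb (b - a)
  rw [hab] at h3
  simp only [tangentGap] at h1 h2
  rw [show a - b = -(b - a) by abel, map_neg] at h2
  linarith

/-- The gradient of the cap function is `Du - p`. -/
lemma capGrad_eq (hu : AM W u) {y : Fin n → ℝ} (hy : y ∈ W) (i : Fin n) :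
    capGrad u x₀ p y i = pd i u y - p i := by
  simpa [pd] using capGrad_dot (x₀ := x₀) (p := p) hu hy (Pi.single i 1)

lemma hasFDerivAt_capGrad (hu : AM W u) {y : Fin n → ℝ} (hy : y ∈ W) :
    HasFDerivAt (capGrad u x₀ p) (Matrix.toLin' (hess u y)ᵀ).toContinuousLinearMap y := by
  have e : capGrad u x₀ p =ᶠ[𝓝 y] fun z i => pd i u z - p i := by
    filter_upwards [hu.isOpen.mem_nhds hy] with z hz
    funext i
    exact capGrad_eq hu hz i
  refine HasFDerivAt.congr_of_eventuallyEq ?_ e
  refine hasFDerivAt_pi'' fun i => ?_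
  refine (((hu.sm.pd hu.isOpen i).differentiableAt hu.isOpen hy).hasFDerivAt.sub_const
    (p i)).congr_fderiv ?_
  ext v
  simp only [ContinuousLinearMap.comp_apply, LinearMap.coe_toContinuousLinearMap',
    ContinuousLinearMap.proj_apply, Matrix.toLin'_apply, Matrix.mulVec, dotProduct,
    Matrix.transpose_apply]
  conv_lhs => rw [pi_eq_sum_univ' v]
  simp only [map_sum, map_smul, smul_eq_mul]
  exact Finset.sum_congr rfl fun j _ => mul_comm _ _

lemma one_le_psiF (hu : AM W u) (hc : Convex ℝ W) (hh : 0 < h) {y : Fin n → ℝ} (hy : y ∈ W)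
    (h0 : x₀ ∈ W) : 1 ≤ psiF u x₀ p h y := by
  have h1 := capFun_tangent (x₀ := x₀) (p := p) hu hc hy h0
  have h3 : capFun u x₀ p x₀ = 0 := capFun_self u x₀ p
  rw [show x₀ - y = -(y - x₀) by abel, dotProduct_neg, dotProduct_comm] at h1
  have h4 : 0 ≤ ((y - x₀) ⬝ᵥ capGrad u x₀ p y - capFun u x₀ p y) / h :=
    div_nonneg (by linarith) hh.le
  simp only [psiF]
  linarith

lemma mem_center (hc : Convex ℝ W) (hβ : 0 < β) (hK : IsCap u x₀ p h β W) {y : Fin n → ℝ}
    (hy : y ∈ capSet u x₀ p h W) : x₀ ∈ W := by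
  have hb : 0 < 1 + β := by linarith
  have := hc hy.1 (hK.bal y hy).1 (a := β / (1 + β)) (b := 1 / (1 + β)) (by positivity)
    (by positivity) (by field_simp; ring)
  convert this using 1
  ext i
  simp only [Pi.add_apply, Pi.smul_apply, Pi.sub_apply, smul_eq_mul]
  field_simp
  ring

/-- On a balanced cap `η ≤ 1 + 1/β`. -/
lemma etaF_le (hu : AM W u) (hc : Convex ℝ W) (hh : 0 < h) (hβ : 0 < β)
    (hK : IsCap u x₀ p h β W) {y : Fin n → ℝ} (hy : y ∈ capSet u x₀ p h W) :
    etaF u x₀ p h y ≤ 1 + β⁻¹ := by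
  have h0 := mem_center hc hβ hK hy
  have hz := hK.bal y hy
  have h1 := capFun_tangent (x₀ := x₀) (p := p) hu hc h0 hy.1
  have h2 := capFun_tangent (x₀ := x₀) (p := p) hu hc h0 hz.1
  rw [show x₀ - β • (y - x₀) - x₀ = -(β • (y - x₀)) by abel, dotProduct_neg, dotProduct_smul,
    smul_eq_mul] at h2
  have h3 : capFun u x₀ p x₀ = 0 := capFun_self u x₀ p
  have h4 : -β⁻¹ ≤ capFun u x₀ p y / h := by
    rw [le_div_iff₀ hh, neg_mul, neg_le, inv_mul_eq_div, le_div_iff₀ hβ]
    nlinarith [hz.2]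
  simp only [etaF]
  linarith

/-- The gradient image lies in a multiple of the polar of the centred cap. -/
lemma capGrad_mem (hu : AM W u) (hc : Convex ℝ W) (hh : 0 < h) {c : ℝ} {y : Fin n → ℝ}
    (hy : y ∈ W) (hψ : psiF u x₀ p h y ≤ c) (hc0 : 0 < c) :
    capGrad u x₀ p y ∈ (c * h) • polarSet ((fun z => z - x₀) '' capSet u x₀ p h W) := by
  rw [Set.mem_smul_set_iff_inv_smul_mem₀ (mul_pos hc0 hh).ne']
  rintro _ ⟨s, hs, rfl⟩
  have h1 := capFun_tangent (x₀ := x₀) (p := p) hu hc hy hs.1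
  rw [show s - y = (s - x₀) - (y - x₀) by abel, dotProduct_sub] at h1
  have h2 : (y - x₀) ⬝ᵥ capGrad u x₀ p y - capFun u x₀ p y ≤ (c - 1) * h := by
    rw [← div_le_iff₀ hh]
    simp only [psiF] at hψ
    linarith
  rw [smul_dotProduct, smul_eq_mul, inv_mul_le_iff₀ (mul_pos hc0 hh)]
  rw [dotProduct_comm (y - x₀)] at h2
  nlinarith [hs.2]

/-- The area formula: the integral of `det D²u` over `{ψ ≤ c}` times the volume of the cap is at
most a constant times `(c h)ⁿ`. -/
theorem setIntegral_det_le (hu : AM W u) (hc : Convex ℝ W) (hh : 0 < h) (hβ : 0 < β)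
    (hK : IsCap u x₀ p h β W) {c : ℝ} (hc0 : 0 < c) :
    (volume (capSet u x₀ p h W)).toReal *
        ∫ y in capSet u x₀ p h W ∩ {y | psiF u x₀ p h y ≤ c}, (hess u y).det ≤
      polarConst n β * (c * h) ^ n := by
  set S := capSet u x₀ p h W
  set A := S ∩ {y | psiF u x₀ p h y ≤ c}
  set P := polarSet ((fun z => z - x₀) '' S)
  have hSW : S ⊆ W := fun y hy => hy.1
  have hψ : ContinuousOn (psiF u x₀ p h) S := (sm_psiF hu).continuousOn.mono hSW
  have hAm : MeasurableSet A :=
    (hψ.preimage_isClosed_of_isClosed hK.cpt.isClosed isClosed_Iic).measurableSet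
  have himg : ∫⁻ y in A, ENNReal.ofReal (hess u y).det ≤
      ENNReal.ofReal ((c * h) ^ n) * volume P := by
    calc ∫⁻ y in A, ENNReal.ofReal (hess u y).det
        = ∫⁻ y in A,
            ENNReal.ofReal |(Matrix.toLin' (hess u y)ᵀ).toContinuousLinearMap.det| := by
          refine setLIntegral_congr_fun hAm fun y hy => ?_
          show _ = ENNReal.ofReal |LinearMap.det _|
          rw [LinearMap.coe_toContinuousLinearMap, LinearMap.det_toLin',
            Matrix.det_transpose, abs_of_pos (hu.det_pos (hSW hy.1))]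
      _ = volume (capGrad u x₀ p '' A) :=
          lintegral_abs_det_fderiv_eq_addHaar_image volume hAm
            (fun y hy => (hasFDerivAt_capGrad hu (hSW hy.1)).hasFDerivWithinAt)
            ((capGrad_injOn hu hc).mono fun y hy => hSW hy.1)
      _ ≤ volume ((c * h) • P) := measure_mono (Set.image_subset_iff.2 fun y hy =>
          capGrad_mem hu hc hh (hSW hy.1) hy.2 hc0)
      _ = _ := by
          rw [Measure.addHaar_smul, Module.finrank_fin_fun, abs_of_nonneg (by positivity)]
  have hbalS : ∀ z ∈ (fun z => z - x₀) '' S, -β • z ∈ (fun z => z - x₀) '' S := by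
    rintro _ ⟨y, hy, rfl⟩
    refine ⟨_, hK.bal y hy, ?_⟩
    show x₀ - β • (y - x₀) - x₀ = _
    rw [neg_smul]
    abel
  have hp := vol_mul_vol_polar_le hβ (hK.cpt.image (by fun_prop)) hbalS
  rw [show volume ((fun z => z - x₀) '' S) = volume S by
    rw [show (fun z => z - x₀) '' S = (fun z => z + x₀) ⁻¹' S from
      congrFun (Set.image_eq_preimage_of_inverse (fun z => sub_add_cancel z x₀)
        fun z => add_sub_cancel_right z x₀) S, measure_preimage_add_right]] at hp
  have htot : volume S * ∫⁻ y in A, ENNReal.ofReal (hess u y).det ≤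
      ENNReal.ofReal (polarConst n β * (c * h) ^ n) := by
    calc volume S * ∫⁻ y in A, ENNReal.ofReal (hess u y).det
        ≤ volume S * (ENNReal.ofReal ((c * h) ^ n) * volume P) := mul_le_mul' le_rfl himg
      _ = volume S * volume P * ENNReal.ofReal ((c * h) ^ n) := by ring
      _ ≤ ENNReal.ofReal (polarConst n β) * ENNReal.ofReal ((c * h) ^ n) := mul_le_mul' hp le_rfl
      _ = _ := (ENNReal.ofReal_mul (polarConst_nonneg n β)).symm
  rw [integral_eq_lintegral_of_nonneg_ae ((ae_restrict_mem hAm).mono fun y hy =>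
      (hu.det_pos (hSW hy.1)).le)
    (((sm_det (msm_hess hu.isOpen hu.sm)).continuousOn.mono fun y hy => hSW hy.1).aestronglyMeasurable
      hAm), ← ENNReal.toReal_mul]
  exact ENNReal.toReal_le_of_le_ofReal (mul_nonneg (polarConst_nonneg n β) (by positivity)) htot

end

end Vale.Agent.P252.General.Mass
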