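import Vale.Agent.P252.Rigidity.General.Mass.Basic

/-!
# The weight `η^m (det D²u)^q` on balanced caps

For `τ = D log det D²u`, `P = Du/(hη)`, `S = D²u (y - x₀)/(hψ)` the equation gives

`div (η^m d^q G (τ - mA P - B S)) = η^m d^q (Q(τ, mP, S) - n (mA + B)/(hψ))`

with `Q` the quadratic form `detForm`.  If it is positive definite then, as `⟨P,S⟩ = 1/(hη) - 1/(hψ)`,
`∫ η^(m-1) d^q ≤ C ∫ η^m d^q/ψ`; the part `ψ > R` is absorbed and the area formula bounds the rest: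
`∫ η^m d^q ≤ C h^(nq) |cap|^(1-2q)`.
-/

namespace Vale.Agent.P252.General.Mass

open scoped ContDiff Topology Matrix MatrixOrder
open MeasureTheory Filter Finset Rigidity
open Three (AM logDet)

noncomputable section

variable {n : ℕ}

/-- The quadratic form of the identity, in `(|τ|, m |P|, |S|)`. -/
def detForm (n : ℕ) (q A B : ℝ) (m : ℕ) (s t r : ℝ) : ℝ :=
  (q - 1 / ((n : ℝ) + 2)) * s ^ 2 + A * (1 - 1 / (m : ℝ)) * t ^ 2 + B * r ^ 2 -
    (1 + (q - 1) * A) * (s * t) - B * q * (s * r) + (B - n * A) * (t * r)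

/-- The form is positive definite. -/
def DetFormPos (n : ℕ) (q A B : ℝ) (m : ℕ) : Prop :=
  ∃ ε : ℝ, 0 < ε ∧ ∀ s t r : ℝ, ε * (s ^ 2 + t ^ 2 + r ^ 2) ≤ detForm n q A B m s t r

/-- The gradient. -/
def grd (f : (Fin n → ℝ) → ℝ) (y : Fin n → ℝ) : Fin n → ℝ := fun i => pd i f y

/-- `tr (G ∇F)`. -/
def gdiv (u : (Fin n → ℝ) → ℝ) (F : (Fin n → ℝ) → Fin n → ℝ) (y : Fin n → ℝ) : ℝ :=
  ∑ i, ∑ j, hinv u y i j * pd i (fun z => F z j) y

/-- Componentwise smoothness of a vector field. -/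
def VSm (W : Set (Fin n → ℝ)) (F : (Fin n → ℝ) → Fin n → ℝ) : Prop := ∀ i, Sm W fun y => F y i

/-- `D²u (y - x₀)`. -/
def hessPos (u : (Fin n → ℝ) → ℝ) (x₀ : Fin n → ℝ) (y : Fin n → ℝ) : Fin n → ℝ :=
  hess u y *ᵥ (y - x₀)

/-- `η (τ - mA Dũ/(hη) - B D²u (y-x₀)/(hψ))`. -/
def detField (u : (Fin n → ℝ) → ℝ) (x₀ p : Fin n → ℝ) (h A B : ℝ) (m : ℕ) (y : Fin n → ℝ) :
    Fin n → ℝ :=
  etaF u x₀ p h y • grd (logDet u) y + (-(m * A) / h) • capGrad u x₀ p y +
    (-B * (etaF u x₀ p h y * (h * psiF u x₀ p h y)⁻¹)) • hessPos u x₀ y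

/-- The weighted integrand. -/
def etaDet (u : (Fin n → ℝ) → ℝ) (x₀ p : Fin n → ℝ) (h q : ℝ) (m : ℕ) (y : Fin n → ℝ) : ℝ :=
  max (etaF u x₀ p h y) 0 ^ m * (hess u y).det ^ q

variable {W : Set (Fin n → ℝ)} {u : (Fin n → ℝ) → ℝ} {x₀ p : Fin n → ℝ} {h β : ℝ} {y : Fin n → ℝ}

variable (hu : AM W u)
include hu

lemma det_ne_zero : ∀ z ∈ W, (hess u z).det ≠ 0 := fun _ hz => (hu.det_pos hz).ne'

lemma hinv_mul_hess (hy : y ∈ W) : hinv u y * hess u y = 1 :=
  Matrix.nonsing_inv_mul _ (det_ne_zero hu y hy).isUnit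

lemma hinv_symm (hy : y ∈ W) (i j : Fin n) : hinv u y i j = hinv u y j i := by
  have e : (hinv u y)ᵀ = hinv u y := by
    rw [hinv, Matrix.transpose_nonsing_inv, hess_symm hu.isOpen hu.sm hy]
  conv_lhs => rw [← e]
  rfl

lemma dot_hinv_comm (hy : y ∈ W) (a b : Fin n → ℝ) :
    a ⬝ᵥ (hinv u y *ᵥ b) = b ⬝ᵥ (hinv u y *ᵥ a) := by
  simp only [dotProduct, Matrix.mulVec, mul_sum]
  rw [sum_comm]
  exact sum_congr rfl fun i _ => sum_congr rfl fun j _ => by rw [hinv_symm hu hy j i]; ring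

lemma pd_logDet (hy : y ∈ W) (k : Fin n) :
    pd k (logDet u) y = (hinv u y * mh u k y).trace := by
  have hd := (sm_det (msm_hess hu.isOpen hu.sm)).differentiableAt hu.isOpen hy
  have e : pd k (logDet u) y = (hess u y).det⁻¹ * pd k (fun z => (hess u z).det) y := by
    show fderiv ℝ (fun z => Real.log (hess u z).det) y _ = _
    rw [(hd.hasFDerivAt.log (det_ne_zero hu y hy)).fderiv]
    rfl
  rw [e, pd_det hu.isOpen (msm_hess hu.isOpen hu.sm) (det_ne_zero hu y hy) hy k, ← mul_assoc,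
    inv_mul_cancel₀ (det_ne_zero hu y hy), one_mul]
  rfl

/-- The equation: `tr (G D² log det) = (n+1)/(n+2) |D log det|²`. -/
lemma gdiv_tau (hy : y ∈ W) :
    gdiv u (grd (logDet u)) y = (((n : ℝ) + 1) / ((n : ℝ) + 2)) *
      (grd (logDet u) y ⬝ᵥ (hinv u y *ᵥ grd (logDet u) y)) := by
  set θ : ℝ := ((n : ℝ) + 1) / ((n : ℝ) + 2) with hθ
  have hθ0 : θ ≠ 0 := by positivity
  have hL := hu.sm_logDet
  have hw : ∀ z ∈ W, affineW u z = Real.exp (-θ * logDet u z) := fun z hz => by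
    rw [affineW, Real.rpow_def_of_pos (hu.det_pos hz), logDet, hθ]
    ring_nf
  have hl : Sm W fun z => -θ * logDet u z := (sm_const (-θ)).mul hL
  have pe : ∀ z ∈ W, ∀ i, pd i (fun z => Real.exp (-θ * logDet u z)) z =
      Real.exp (-θ * logDet u z) * pd i (fun z => -θ * logDet u z) z := fun z hz i => by
    simp only [pd]
    rw [(hl.differentiableAt hu.isOpen hz).hasFDerivAt.exp.fderiv]
    rfl
  have h1 : ∀ z ∈ W, ∀ j, pd j (affineW u) z =
      Real.exp (-θ * logDet u z) * (-θ * pd j (logDet u) z) := fun z hz j => by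
    rw [pd_congr_on hu.isOpen hz hw, pe z hz,
      pd_mul (differentiableAt_const _) (hL.differentiableAt hu.isOpen hz), pd_const, zero_mul,
      zero_add]
  have he : Sm W fun z => Real.exp (-θ * logDet u z) := ContDiffOn.exp hl
  have h2 : ∀ i j, hess (affineW u) y i j = Real.exp (-θ * logDet u y) *
      (θ ^ 2 * (pd i (logDet u) y * pd j (logDet u) y) - θ * hess (logDet u) y i j) := by
    intro i j
    show pd i (fun z => pd j (affineW u) z) y = _
    rw [pd_congr_on hu.isOpen hy (fun z hz => h1 z hz j),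
      pd_mul (he.differentiableAt hu.isOpen hy)
        (((sm_const (-θ)).mul (hL.pd hu.isOpen j)).differentiableAt hu.isOpen hy),
      pe y hy, pd_mul (differentiableAt_const _) (hL.differentiableAt hu.isOpen hy),
      pd_mul (differentiableAt_const _) ((hL.pd hu.isOpen j).differentiableAt hu.isOpen hy),
      pd_const]
    show _ = Real.exp (-θ * logDet u y) *
      (θ ^ 2 * _ - θ * pd i (fun z => pd j (logDet u) z) y)
    ring
  have e := hu.eq y hy
  simp only [h2] at e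
  have e' : (hess u y).det * Real.exp (-θ * logDet u y) * θ *
      (θ * (grd (logDet u) y ⬝ᵥ (hinv u y *ᵥ grd (logDet u) y)) -
        gdiv u (grd (logDet u)) y) = 0 := by
    rw [← e]
    simp only [gdiv, grd, dotProduct, Matrix.mulVec, mul_sum, ← sum_sub_distrib, hinv, hess,
      Matrix.of_apply]
    exact sum_congr rfl fun i _ => sum_congr rfl fun j _ => by ring
  have := (mul_eq_zero.1 e').resolve_left
    (mul_ne_zero (mul_ne_zero (det_ne_zero hu y hy) (Real.exp_pos _).ne') hθ0)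
  linarith

lemma vsm_tau : VSm W (grd (logDet u)) := fun i => hu.sm_logDet.pd hu.isOpen i

lemma vsm_capGrad : VSm W (capGrad u x₀ p) := fun i => sm_capGrad hu i

lemma sm_sub_apply (j : Fin n) : Sm W fun z => z j - x₀ j :=
  (contDiff_apply ℝ ℝ j).contDiffOn.sub (sm_const (x₀ j))

lemma vsm_hessPos : VSm W (hessPos u x₀) := fun i =>
  show Sm W fun z => ∑ k, hess u z i k * (z k - x₀ k) from
    sm_sum _ fun k _ => (hu.sm.hess hu.isOpen i k).mul (sm_sub_apply hu k)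

lemma gdiv_smul (hy : y ∈ W) {f : (Fin n → ℝ) → ℝ} {F : (Fin n → ℝ) → Fin n → ℝ}
    (hf : Sm W f) (hF : VSm W F) :
    gdiv u (fun z => f z • F z) y = grd f y ⬝ᵥ (hinv u y *ᵥ F y) + f y * gdiv u F y := by
  simp only [gdiv, grd, dotProduct, Matrix.mulVec, mul_sum, ← sum_add_distrib, Pi.smul_apply,
    smul_eq_mul]
  refine sum_congr rfl fun i _ => sum_congr rfl fun j _ => ?_
  rw [pd_mul (hf.differentiableAt hu.isOpen hy) ((hF j).differentiableAt hu.isOpen hy) i]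
  ring

lemma gdiv_add (hy : y ∈ W) {F H : (Fin n → ℝ) → Fin n → ℝ} (hF : VSm W F) (hH : VSm W H) :
    gdiv u (fun z => F z + H z) y = gdiv u F y + gdiv u H y := by
  simp only [gdiv, ← sum_add_distrib, Pi.add_apply]
  refine sum_congr rfl fun i _ => sum_congr rfl fun j _ => ?_
  rw [pd_add ((hF j).differentiableAt hu.isOpen hy) ((hH j).differentiableAt hu.isOpen hy) i]
  ring

lemma pd_capGrad (hy : y ∈ W) (i j : Fin n) :
    pd i (fun z => capGrad u x₀ p z j) y = hess u y i j := by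
  rw [pd_congr_on hu.isOpen hy (g := fun z => pd j u z - p j) (fun z hz => capGrad_eq hu hz j),
    pd_sub ((hu.sm.pd hu.isOpen j).differentiableAt hu.isOpen hy) (differentiableAt_const _),
    pd_const, sub_zero]
  rfl

lemma trace_hinv_hess (hy : y ∈ W) : ∑ i, ∑ j, hinv u y i j * hess u y j i = n := by
  have e : (hinv u y * hess u y).trace = n := by rw [hinv_mul_hess hu hy]; simp
  simpa [Matrix.trace, Matrix.mul_apply] using e

lemma gdiv_capGrad (hy : y ∈ W) : gdiv u (capGrad u x₀ p) y = n := by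
  rw [← trace_hinv_hess hu hy]
  refine sum_congr rfl fun i _ => sum_congr rfl fun j _ => ?_
  rw [pd_capGrad hu hy, show hess u y j i = (hess u y)ᵀ i j from rfl,
    hess_symm hu.isOpen hu.sm hy]

lemma gdiv_hessPos (hy : y ∈ W) :
    gdiv u (hessPos u x₀) y = grd (logDet u) y ⬝ᵥ (y - x₀) + n := by
  have hd : ∀ i j, pd i (fun z => hessPos u x₀ z j) y =
      (∑ k, mh u k y j i * (y k - x₀ k)) + hess u y j i := by
    intro i j
    show pd i (fun z => ∑ k, hess u z j k * (z k - x₀ k)) y = _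
    rw [pd_sum fun k _ => ((hu.sm.hess hu.isOpen j k).mul (sm_sub_apply hu k)).differentiableAt
      hu.isOpen hy]
    have e : ∀ k, pd i (fun z => hess u z j k * (z k - x₀ k)) y =
        mh u k y j i * (y k - x₀ k) + hess u y j k * if k = i then 1 else 0 := fun k => by
      rw [pd_mul ((hu.sm.hess hu.isOpen j k).differentiableAt hu.isOpen hy)
        ((sm_sub_apply hu k).differentiableAt hu.isOpen hy)]
      congr 1
      · congr 1
        show mpd i (hess u) y j k = mpd k (hess u) y j i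
        rw [(mpd_hess_symm hu.isOpen hu.sm hy i j k).1, (mpd_hess_symm hu.isOpen hu.sm hy j i k).2,
          (mpd_hess_symm hu.isOpen hu.sm hy j k i).1]
      · congr 1
        rw [pd, ((hasFDerivAt_apply (𝕜 := ℝ) k y).sub_const (x₀ k)).fderiv]
        simp [Pi.single_apply]
    simp only [e, sum_add_distrib, mul_ite, mul_one, mul_zero, sum_ite_eq', mem_univ, if_true]
  simp only [gdiv, hd, mul_add, sum_add_distrib, trace_hinv_hess hu hy, add_left_inj]
  simp only [dotProduct, grd, pd_logDet hu hy, Matrix.trace, Matrix.diag, Matrix.mul_apply,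
    sum_mul, mul_sum, Pi.sub_apply]
  symm
  rw [sum_comm]
  refine sum_congr rfl fun i _ => ?_
  rw [sum_comm]
  exact sum_congr rfl fun j _ => sum_congr rfl fun k _ => by ring

lemma grd_etaF (hy : y ∈ W) : grd (etaF u x₀ p h) y = (-h⁻¹) • capGrad u x₀ p y := by
  funext i
  show pd i (fun z => 1 - capFun u x₀ p z / h) y = _
  simp only [div_eq_mul_inv]
  rw [pd_sub (differentiableAt_const _)
      ((((sm_capFun hu).differentiableAt hu.isOpen hy)).mul_const _),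
    pd_const, pd_mul ((sm_capFun hu).differentiableAt hu.isOpen hy) (differentiableAt_const _),
    pd_const]
  simp [capGrad]
  ring

lemma grd_psiF (hy : y ∈ W) : grd (psiF u x₀ p h) y = h⁻¹ • hessPos u x₀ y := by
  have hs : Sm W fun z => (z - x₀) ⬝ᵥ capGrad u x₀ p z :=
    sm_sum _ fun j _ => (sm_sub_apply hu j).mul (sm_capGrad hu j)
  have hd := hs.differentiableAt hu.isOpen hy
  have hc : DifferentiableAt ℝ (capFun u x₀ p) y := (sm_capFun hu).differentiableAt hu.isOpen hy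
  funext i
  show pd i (fun z => 1 + ((z - x₀) ⬝ᵥ capGrad u x₀ p z - capFun u x₀ p z) / h) y = _
  simp only [div_eq_mul_inv]
  rw [pd_add (differentiableAt_const _) ((hd.fun_sub hc).mul_const _), pd_const,
    pd_mul (hd.fun_sub hc) (differentiableAt_const _), pd_const, pd_sub hd hc]
  have e : pd i (fun z => ∑ j, (z j - x₀ j) * capGrad u x₀ p z j) y =
      capGrad u x₀ p y i + hessPos u x₀ y i := by
    rw [pd_sum fun j _ => ((sm_sub_apply hu j).mul (sm_capGrad hu j)).differentiableAt hu.isOpen hy]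
    have : ∀ j, pd i (fun z => (z j - x₀ j) * capGrad u x₀ p z j) y =
        (if j = i then 1 else 0) * capGrad u x₀ p y j + hess u y i j * (y j - x₀ j) := fun j => by
      rw [pd_mul ((sm_sub_apply hu j).differentiableAt hu.isOpen hy)
        ((sm_capGrad hu j).differentiableAt hu.isOpen hy), pd_capGrad hu hy]
      rw [pd, ((hasFDerivAt_apply (𝕜 := ℝ) j y).sub_const (x₀ j)).fderiv]
      simp [Pi.single_apply]
      ring
    simp [this, sum_add_distrib, hessPos, Matrix.mulVec, dotProduct]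
  rw [show pd i (fun z => (z - x₀) ⬝ᵥ capGrad u x₀ p z) y =
    pd i (fun z => ∑ j, (z j - x₀ j) * capGrad u x₀ p z j) y from rfl, e]
  simp [capGrad]
  ring

/-- `⟨Dũ, D²u (y - x₀)⟩ = hψ - hη`. -/
lemma capGrad_dot_hessPos (hy : y ∈ W) (hh : 0 < h) :
    capGrad u x₀ p y ⬝ᵥ (hinv u y *ᵥ hessPos u x₀ y) =
      h * psiF u x₀ p h y - h * etaF u x₀ p h y := by
  rw [hessPos, Matrix.mulVec_mulVec, hinv_mul_hess hu hy, Matrix.one_mulVec, psiF, etaF,
    dotProduct_comm]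
  field_simp
  ring

omit hu in
/-- The scalar identity behind the divergence. -/
lemma scalar_identity {m η ψ h q A B N TT Tg Ts gg gs ss : ℝ} (hm : m ≠ 0) (hη : η ≠ 0)
    (hψ : ψ ≠ 0) (hh : h ≠ 0) (hN : N + 2 ≠ 0) (e : gs = h * ψ - h * η) :
    (m - 1) / η * -h⁻¹ * (η * Tg + -(m * A) / h * gg + -B * (η * (h * ψ)⁻¹) * gs) +
      (q - 1) * (η * TT + -(m * A) / h * Tg + -B * (η * (h * ψ)⁻¹) * Ts) +
      (-h⁻¹ * Tg + η * ((N + 1) / (N + 2) * TT) + -(m * A) / h * N +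
        (-B * (-h⁻¹ * gs * (h * ψ)⁻¹ - η * h * ((h * ψ)⁻¹) ^ 2 * (h⁻¹ * ss)) +
          -B * (η * (h * ψ)⁻¹) * (Ts + N))) =
    η * ((q - 1 / (N + 2)) * TT + A * (1 - 1 / m) * ((m / (h * η)) ^ 2 * gg) +
      B * ((h * ψ)⁻¹ ^ 2 * ss) - (1 + (q - 1) * A) * (m / (h * η) * Tg) -
      B * q * ((h * ψ)⁻¹ * Ts) + (B - N * A) * (m / (h * η) * (h * ψ)⁻¹ * gs) -
      N * (m * A + B) * (h * ψ)⁻¹) := by
  subst e
  field_simp
  ring

omit hu in
/-- The form of covectors. -/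
lemma form_vec_le {q A B ε : ℝ} {m : ℕ}
    (hε : ∀ s t r : ℝ, ε * (s ^ 2 + t ^ 2 + r ^ 2) ≤ detForm n q A B m s t r)
    {G : Matrix (Fin n) (Fin n) ℝ} (hG : G.PosDef) (a b c : Fin n → ℝ) :
    ε * (a ⬝ᵥ (G *ᵥ a) + b ⬝ᵥ (G *ᵥ b) + c ⬝ᵥ (G *ᵥ c)) ≤
      (q - 1 / ((n : ℝ) + 2)) * (a ⬝ᵥ (G *ᵥ a)) + A * (1 - 1 / (m : ℝ)) * (b ⬝ᵥ (G *ᵥ b)) +
        B * (c ⬝ᵥ (G *ᵥ c)) - (1 + (q - 1) * A) * (a ⬝ᵥ (G *ᵥ b)) -
        B * q * (a ⬝ᵥ (G *ᵥ c)) + (B - n * A) * (b ⬝ᵥ (G *ᵥ c)) ∧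
      2 * (b ⬝ᵥ (G *ᵥ c)) ≤ b ⬝ᵥ (G *ᵥ b) + c ⬝ᵥ (G *ᵥ c) ∧
      0 ≤ a ⬝ᵥ (G *ᵥ a) ∧ 0 ≤ b ⬝ᵥ (G *ᵥ b) := by
  obtain ⟨C, hC⟩ : ∃ C : Matrix (Fin n) (Fin n) ℝ, G = Cᵀ * C := by
    obtain ⟨C, hC⟩ := CStarAlgebra.nonneg_iff_eq_star_mul_self.mp hG.posSemidef.nonneg
    exact ⟨C, by simpa [Matrix.star_eq_conjTranspose,
      Matrix.conjTranspose_eq_transpose_of_trivial] using hC⟩
  have key : ∀ s r : Fin n → ℝ, s ⬝ᵥ (G *ᵥ r) = ∑ i, (C *ᵥ s) i * (C *ᵥ r) i := fun s r => by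
    rw [hC, ← Matrix.mulVec_mulVec, Matrix.dotProduct_mulVec, Matrix.vecMul_transpose]
    rfl
  simp only [key, mul_sum, ← sum_add_distrib, ← sum_sub_distrib]
  refine ⟨sum_le_sum fun i _ => ?_, sum_le_sum fun i _ => ?_,
    sum_nonneg fun i _ => mul_self_nonneg _, sum_nonneg fun i _ => mul_self_nonneg _⟩
  · have := hε ((C *ᵥ a) i) ((C *ᵥ b) i) ((C *ᵥ c) i)
    simp only [detForm] at this
    linarith
  · nlinarith [sq_nonneg ((C *ᵥ b) i - (C *ᵥ c) i)]

variable (hc : Convex ℝ W) (hh : 0 < h) (h0 : x₀ ∈ W)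
include hc hh h0

lemma psiF_pos (hy : y ∈ W) : 0 < psiF u x₀ p h y := by
  linarith [one_le_psiF (p := p) hu hc hh hy h0]

lemma sm_rho : Sm W fun z => etaF u x₀ p h z * (h * psiF u x₀ p h z)⁻¹ :=
  (sm_etaF hu).mul (ContDiffOn.inv ((sm_const h).mul (sm_psiF hu)) fun _ hz =>
    (mul_pos hh (psiF_pos hu hc hh h0 hz)).ne')

lemma vsm_detField (A B : ℝ) (m : ℕ) : VSm W (detField u x₀ p h A B m) := fun i =>
  (((sm_etaF hu).mul (vsm_tau hu i)).add ((sm_const _).mul (sm_capGrad hu i))).add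
    (((sm_const (-B)).mul (sm_rho hu hc hh h0)).mul (vsm_hessPos hu i))

/-- The divergence of the weighted field, as a scalar expression. -/
lemma gdiv_weighted (hy : y ∈ W) (hη : 0 < etaF u x₀ p h y) (q A B : ℝ) (k : ℕ) :
    let TT := grd (logDet u) y ⬝ᵥ (hinv u y *ᵥ grd (logDet u) y)
    let Tg := grd (logDet u) y ⬝ᵥ (hinv u y *ᵥ capGrad u x₀ p y)
    let Ts := grd (logDet u) y ⬝ᵥ (hinv u y *ᵥ hessPos u x₀ y)
    let gg := capGrad u x₀ p y ⬝ᵥ (hinv u y *ᵥ capGrad u x₀ p y)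
    let ss := hessPos u x₀ y ⬝ᵥ (hinv u y *ᵥ hessPos u x₀ y)
    let gs := capGrad u x₀ p y ⬝ᵥ (hinv u y *ᵥ hessPos u x₀ y)
    let η := etaF u x₀ p h y
    let ψ := psiF u x₀ p h y
    gdiv u (fun z => (etaF u x₀ p h z ^ (k + 2) * (hess u z).det ^ (q - 1)) •
        detField u x₀ p h A B (k + 3) z) y =
      η ^ (k + 2) * (hess u y).det ^ (q - 1) *
        (((k + 3 : ℕ) - 1 : ℝ) / η * -h⁻¹ *
            (η * Tg + -((k + 3 : ℕ) * A) / h * gg + -B * (η * (h * ψ)⁻¹) * gs) +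
          (q - 1) * (η * TT + -((k + 3 : ℕ) * A) / h * Tg + -B * (η * (h * ψ)⁻¹) * Ts) +
          (-h⁻¹ * Tg + η * (((n : ℝ) + 1) / ((n : ℝ) + 2) * TT) + -((k + 3 : ℕ) * A) / h * n +
            (-B * (-h⁻¹ * gs * (h * ψ)⁻¹ - η * h * ((h * ψ)⁻¹) ^ 2 * (h⁻¹ * ss)) +
              -B * (η * (h * ψ)⁻¹) * (Ts + n)))) := by
  intro TT Tg Ts gg ss gs η ψ
  have hW := hu.isOpen
  have hdet := sm_det (msm_hess hW hu.sm)
  have hηd := (sm_etaF (x₀ := x₀) (p := p) (h := h) hu).differentiableAt hW hy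
  have hψd := (sm_psiF (x₀ := x₀) (p := p) (h := h) hu).differentiableAt hW hy
  have hd0 := hu.det_pos hy
  have hψ0 := psiF_pos hu hc hh h0 (p := p) hy
  have hdd := hdet.differentiableAt hW hy
  have ha : DifferentiableAt ℝ (fun z => (hess u z).det ^ (q - 1)) y :=
    hdd.rpow_const (Or.inl hd0.ne')
  have hωs : Sm W fun z => etaF u x₀ p h z ^ (k + 2) * (hess u z).det ^ (q - 1) :=
    ((sm_etaF hu).pow _).mul (hdet.rpow_const_of_ne fun z hz => (hu.det_pos hz).ne')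
  have gω : grd (fun z => etaF u x₀ p h z ^ (k + 2) * (hess u z).det ^ (q - 1)) y =
      (η ^ (k + 2) * (hess u y).det ^ (q - 1)) •
        (((((k + 3 : ℕ) - 1 : ℝ) / η * -h⁻¹) • capGrad u x₀ p y) +
          (q - 1) • grd (logDet u) y) := by
    funext i
    show pd i (fun z => etaF u x₀ p h z ^ (k + 2) * (hess u z).det ^ (q - 1)) y = _
    rw [pd_mul (hηd.fun_pow _) ha, pd_pow hηd]
    have e1 : pd i (etaF u x₀ p h) y = -h⁻¹ * capGrad u x₀ p y i := congrFun (grd_etaF hu hy) i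
    have e2 : pd i (fun z => (hess u z).det ^ (q - 1)) y =
        (q - 1) * (hess u y).det ^ (q - 1 - 1) * pd i (fun z => (hess u z).det) y := by
      simp [pd, (hdd.hasFDerivAt.rpow_const (p := q - 1) (Or.inl hd0.ne')).fderiv]
    have e3 : pd i (fun z => (hess u z).det) y = (hess u y).det * pd i (logDet u) y := by
      rw [pd_det hW (msm_hess hW hu.sm) hd0.ne' hy, pd_logDet hu hy]
      rfl
    rw [e1, e2, e3, Real.rpow_sub_one hd0.ne' (q - 1), show k + 2 - 1 = k + 1 by omega]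
    simp only [η, grd, Pi.smul_apply, Pi.add_apply, smul_eq_mul]
    push_cast
    field_simp
    ring
  have gρ : grd (fun z => -B * (etaF u x₀ p h z * (h * psiF u x₀ p h z)⁻¹)) y =
      (-B * (-h⁻¹ * (h * ψ)⁻¹)) • capGrad u x₀ p y +
        (-B * -(η * h * ((h * ψ)⁻¹) ^ 2 * h⁻¹)) • hessPos u x₀ y := by
    funext i
    show pd i (fun z => -B * (etaF u x₀ p h z * (h * psiF u x₀ p h z)⁻¹)) y = _
    have hne : h * psiF u x₀ p h y ≠ 0 := (mul_pos hh hψ0).ne'
    have hi : HasFDerivAt (fun z => (h * psiF u x₀ p h z)⁻¹)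
        ((-((h * psiF u x₀ p h y) ^ 2)⁻¹) • (h • fderiv ℝ (psiF u x₀ p h) y)) y :=
      (hasDerivAt_inv hne).comp_hasFDerivAt y (hψd.hasFDerivAt.const_mul h)
    rw [pd_mul (differentiableAt_const _) (hηd.fun_mul hi.differentiableAt), pd_const,
      pd_mul hηd hi.differentiableAt]
    have e1 : pd i (etaF u x₀ p h) y = -h⁻¹ * capGrad u x₀ p y i := congrFun (grd_etaF hu hy) i
    have e2 : pd i (fun z => (h * psiF u x₀ p h z)⁻¹) y =
        -((h * psiF u x₀ p h y) ^ 2)⁻¹ * (h * (h⁻¹ * hessPos u x₀ y i)) := by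
      have e3 : pd i (psiF u x₀ p h) y = h⁻¹ * hessPos u x₀ y i := congrFun (grd_psiF hu hy) i
      rw [pd, hi.fderiv]
      simp only [smul_apply, smul_eq_mul]
      rw [← e3]
      rfl
    rw [e1, e2]
    simp only [η, ψ, Pi.smul_apply, Pi.add_apply, smul_eq_mul, inv_pow]
    ring
  have hTs : grd (logDet u) y ⬝ᵥ (y - x₀) = Ts := by
    simp only [Ts, hessPos, Matrix.mulVec_mulVec, hinv_mul_hess hu hy, Matrix.one_mulVec]
  have v1 : VSm W fun z => etaF u x₀ p h z • grd (logDet u) z := fun i =>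
    (sm_etaF hu).mul (vsm_tau hu i)
  have v2 : VSm W fun z => (-((k + 3 : ℕ) * A) / h) • capGrad u x₀ p z := fun i =>
    (sm_const _).mul (sm_capGrad hu i)
  have v3 : VSm W fun z =>
      (-B * (etaF u x₀ p h z * (h * psiF u x₀ p h z)⁻¹)) • hessPos u x₀ z := fun i =>
    ((sm_const (-B)).mul (sm_rho hu hc hh h0)).mul (vsm_hessPos hu i)
  have v12 : VSm W fun z => etaF u x₀ p h z • grd (logDet u) z +
      (-((k + 3 : ℕ) * A) / h) • capGrad u x₀ p z := fun i => (v1 i).add (v2 i)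
  have gc : grd (fun _ : Fin n → ℝ => -((k + 3 : ℕ) * A) / h) y = 0 := funext fun i => pd_const _ i
  have hgY : gdiv u (detField u x₀ p h A B (k + 3)) y =
      -h⁻¹ * Tg + η * (((n : ℝ) + 1) / ((n : ℝ) + 2) * TT) + -((k + 3 : ℕ) * A) / h * n +
        (-B * (-h⁻¹ * gs * (h * ψ)⁻¹ - η * h * ((h * ψ)⁻¹) ^ 2 * (h⁻¹ * ss)) +
          -B * (η * (h * ψ)⁻¹) * (Ts + n)) := by
    unfold detField
    rw [gdiv_add hu hy v12 v3, gdiv_add hu hy v1 v2, gdiv_smul hu hy (sm_etaF hu) (vsm_tau hu),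
      gdiv_smul hu hy (sm_const _) (vsm_capGrad hu),
      gdiv_smul hu hy ((sm_const (-B)).mul (sm_rho hu hc hh h0)) (vsm_hessPos hu),
      gρ, gc, grd_etaF hu hy, gdiv_tau hu hy, gdiv_capGrad hu hy, gdiv_hessPos hu hy, hTs]
    simp only [zero_dotProduct, add_dotProduct, smul_dotProduct, smul_eq_mul,
      dot_hinv_comm hu hy (capGrad u x₀ p y) (grd (logDet u) y)]
    simp only [TT, Tg, Ts, ss, gs, η, ψ]
    ring
  rw [gdiv_smul hu hy hωs (vsm_detField hu hc hh h0 A B _), gω, hgY]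
  simp only [detField, smul_dotProduct, add_dotProduct, Matrix.mulVec_add, Matrix.mulVec_smul,
    dotProduct_add, dotProduct_smul, smul_eq_mul,
    dot_hinv_comm hu hy (capGrad u x₀ p y) (grd (logDet u) y)]
  simp only [TT, Tg, Ts, gg, ss, gs, η, ψ]
  ring

/-- The divergence inequality. -/
lemma div_lower {q A B ε : ℝ} {k : ℕ} (hε0 : 0 ≤ ε)
    (hε : ∀ s t r : ℝ, ε * (s ^ 2 + t ^ 2 + r ^ 2) ≤ detForm n q A B (k + 3) s t r)
    (hy : y ∈ W) (hη : 0 < etaF u x₀ p h y) :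
    h⁻¹ * (2 * ε * (etaF u x₀ p h y ^ (k + 2) * (hess u y).det ^ q) -
        (2 * ε + |(n : ℝ) * ((k + 3 : ℕ) * A + B)|) *
          (etaF u x₀ p h y ^ (k + 3) * (hess u y).det ^ q / psiF u x₀ p h y)) ≤
      (hess u y).det *
        gdiv u (fun z => (etaF u x₀ p h z ^ (k + 2) * (hess u z).det ^ (q - 1)) •
          detField u x₀ p h A B (k + 3) z) y := by
  have hψ := psiF_pos hu hc hh h0 (p := p) hy
  have hd := hu.det_pos hy
  set η := etaF u x₀ p h y with hηdef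
  set ψ := psiF u x₀ p h y with hψdef
  set d := (hess u y).det with hddef
  set g := capGrad u x₀ p y with hg
  set s := hessPos u x₀ y with hs
  set G := hinv u y with hG
  have e : g ⬝ᵥ (G *ᵥ s) = h * ψ - h * η := capGrad_dot_hessPos hu hy hh
  obtain ⟨f1, f2, fa, fb⟩ := form_vec_le (n := n) hε (hu.pos y hy).inv (grd (logDet u) y)
    (((k + 3 : ℕ) / (h * η) : ℝ) • g) ((h * ψ)⁻¹ • s)
  obtain ⟨-, g2, -, gb⟩ := form_vec_le (n := n) hε (hu.pos y hy).inv (grd (logDet u) y)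
    ((h * η)⁻¹ • g) ((h * ψ)⁻¹ • s)
  rw [gdiv_weighted hu hc hh h0 hy hη q A B k]
  simp only [smul_dotProduct, dotProduct_smul, Matrix.mulVec_smul, smul_eq_mul] at f1 g2 gb fb
  rw [show (hess u y)⁻¹ = G from rfl] at f1 g2 gb fb fa
  set TT := grd (logDet u) y ⬝ᵥ (G *ᵥ grd (logDet u) y)
  set Tg := grd (logDet u) y ⬝ᵥ (G *ᵥ g)
  set Ts := grd (logDet u) y ⬝ᵥ (G *ᵥ s)
  set gg := g ⬝ᵥ (G *ᵥ g)
  set ss := s ⬝ᵥ (G *ᵥ s)
  set gs := g ⬝ᵥ (G *ᵥ s)
  rw [scalar_identity (gs := gs) (by positivity) hη.ne' hψ.ne' hh.ne' (by positivity) e]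
  have hd' : d * d ^ (q - 1) = d ^ q := by
    rw [Real.rpow_sub_one hd.ne']; field_simp
  have hgg : 0 ≤ gg := by
    have : (0 : ℝ) < (h * η)⁻¹ * (h * η)⁻¹ := by positivity
    nlinarith
  have hm1 : (h * η)⁻¹ * ((h * η)⁻¹ * gg) ≤
      ((k + 3 : ℕ) / (h * η) : ℝ) * (((k + 3 : ℕ) / (h * η) : ℝ) * gg) := by
    rw [← mul_assoc, ← mul_assoc]
    refine mul_le_mul_of_nonneg_right ?_ hgg
    rw [← one_div]
    gcongr <;> (push_cast; linarith [Nat.cast_nonneg (α := ℝ) k])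
  have e12 : (h * η)⁻¹ * ((h * ψ)⁻¹ * gs) = (h * η)⁻¹ - (h * ψ)⁻¹ := by
    rw [e]; field_simp
  have hb := abs_le.1 (le_refl |(n : ℝ) * ((k + 3 : ℕ) * A + B)|)
  have hq : 2 * ε * (h * η)⁻¹ - (2 * ε + |(n : ℝ) * ((k + 3 : ℕ) * A + B)|) * (h * ψ)⁻¹ ≤
      (q - 1 / ((n : ℝ) + 2)) * TT + A * (1 - 1 / ((k + 3 : ℕ) : ℝ)) *
        (((k + 3 : ℕ) / (h * η) : ℝ) ^ 2 * gg) + B * ((h * ψ)⁻¹ ^ 2 * ss) -
        (1 + (q - 1) * A) * ((k + 3 : ℕ) / (h * η) * Tg) - B * q * ((h * ψ)⁻¹ * Ts) +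
        (B - n * A) * ((k + 3 : ℕ) / (h * η) * (h * ψ)⁻¹ * gs) -
        n * ((k + 3 : ℕ) * A + B) * (h * ψ)⁻¹ := by
    have h1 : 0 ≤ (h * ψ)⁻¹ := by positivity
    nlinarith [mul_le_mul_of_nonneg_right hb.2 h1, mul_nonneg hε0 fa,
      mul_le_mul_of_nonneg_left g2 hε0, mul_le_mul_of_nonneg_left hm1 hε0, e12]
  calc h⁻¹ * (2 * ε * (η ^ (k + 2) * d ^ q) -
        (2 * ε + |(n : ℝ) * ((k + 3 : ℕ) * A + B)|) * (η ^ (k + 3) * d ^ q / ψ))
      = η ^ (k + 3) * d ^ q *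
          (2 * ε * (h * η)⁻¹ - (2 * ε + |(n : ℝ) * ((k + 3 : ℕ) * A + B)|) * (h * ψ)⁻¹) := by
        field_simp
        ring
    _ ≤ η ^ (k + 3) * d ^ q * _ := mul_le_mul_of_nonneg_left hq
        (mul_nonneg (pow_nonneg hη.le _) (Real.rpow_nonneg hd.le _))
    _ = _ := by rw [← hd']; ring

/-- The field, cut off at the boundary of the cap, is `C¹` with the divergence bound. -/
lemma exists_ext {q A B ε : ℝ} {k : ℕ} (hε0 : 0 ≤ ε)
    (hε : ∀ s t r : ℝ, ε * (s ^ 2 + t ^ 2 + r ^ 2) ≤ detForm n q A B (k + 3) s t r) :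
    ∃ F : Fin n → (Fin n → ℝ) → ℝ, (∀ i, ContDiffOn ℝ 1 (F i) W) ∧
      (∀ i, ∀ z ∈ W, etaF u x₀ p h z ≤ 0 → F i z = 0) ∧
      ∀ z ∈ W, h⁻¹ * (2 * ε * etaDet u x₀ p h q (k + 2) z -
          (2 * ε + |(n : ℝ) * ((k + 3 : ℕ) * A + B)|) *
            (etaDet u x₀ p h q (k + 3) z / psiF u x₀ p h z)) ≤ ∑ i, pd i (F i) z := by
  have hW := hu.isOpen
  have hdet := sm_det (msm_hess hW hu.sm)
  have hne := det_ne_zero hu
  have hY := vsm_detField (p := p) hu hc hh h0 A B (k + 3)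
  have hco := msm_cofH hW hu.sm hne
  set R : Fin n → (Fin n → ℝ) → ℝ := fun i z =>
    ∑ j, cofH u z i j * ((hess u z).det ^ (q - 1) * detField u x₀ p h A B (k + 3) z j) with hR
  have hRs : ∀ i, Sm W (R i) := fun i => sm_sum _ fun j _ =>
    (hco i j).mul ((hdet.rpow_const_of_ne fun z hz => hne z hz).mul (hY j))
  refine ⟨fun i z => max (etaF u x₀ p h z) 0 ^ (k + 2) * R i z,
    fun i => ((contDiff_posPart_pow k).comp_contDiffOn
      (ContDiffOn.of_le (sm_etaF hu) (by simp))).mul (ContDiffOn.of_le (hRs i) (by simp)),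
    fun i z _ hη => by simp [max_eq_right hη], fun y hy => ?_⟩
  rcases le_or_gt (etaF u x₀ p h y) 0 with hη | hη
  · have hm : max (etaF u x₀ p h y) 0 = 0 := max_eq_right hη
    have hd : HasFDerivAt (fun z => max (etaF u x₀ p h z) 0 ^ (k + 2))
        (0 : (Fin n → ℝ) →L[ℝ] ℝ) y := by
      refine ((hasDerivAt_posPart_pow k (etaF u x₀ p h y)).comp_hasFDerivAt y
        ((sm_etaF hu).differentiableAt hW hy).hasFDerivAt).congr_fderiv ?_
      rw [hm]
      simp
    have hz : ∀ i, pd i (fun z => max (etaF u x₀ p h z) 0 ^ (k + 2) * R i z) y = 0 := fun i => by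
      rw [pd_mul hd.differentiableAt ((hRs i).differentiableAt hW hy), hm, pd, hd.fderiv]
      simp
    simp [hz, etaDet, hm]
  · set g : (Fin n → ℝ) → Fin n → ℝ := fun z =>
      (etaF u x₀ p h z ^ (k + 2) * (hess u z).det ^ (q - 1)) • detField u x₀ p h A B (k + 3) z
      with hg
    have hgs : ∀ j, Sm W fun z => g z j := fun j =>
      (((sm_etaF hu).pow _).mul (hdet.rpow_const_of_ne fun z hz => hne z hz)).mul (hY j)
    have hev : ∀ᶠ z in 𝓝 y, 0 < etaF u x₀ p h z :=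
      (((sm_etaF hu).continuousOn.continuousAt (hW.mem_nhds hy)).eventually_const_lt hη)
    have e : ∀ i, pd i (fun z => max (etaF u x₀ p h z) 0 ^ (k + 2) * R i z) y =
        ∑ j, (pd i (fun z => cofH u z i j) y * g y j +
          cofH u y i j * pd i (fun z => g z j) y) := fun i => by
      rw [pd_congr (g := fun z => ∑ j, cofH u z i j * g z j) (hev.mono fun z hz => by
          simp only [max_eq_left hz.le, hR, hg, Pi.smul_apply, smul_eq_mul, mul_sum]
          exact sum_congr rfl fun j _ => by ring) i,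
        pd_sum fun j _ => ((hco i j).mul (hgs j)).differentiableAt hW hy]
      exact sum_congr rfl fun j _ =>
        pd_mul ((hco i j).differentiableAt hW hy) ((hgs j).differentiableAt hW hy) i
    have e2 : ∑ i, pd i (fun z => max (etaF u x₀ p h z) 0 ^ (k + 2) * R i z) y =
        (hess u y).det * gdiv u g y := by
      simp only [e, sum_add_distrib]
      rw [sum_comm]
      simp only [← sum_mul, piola hW hu.sm hne hy, zero_mul, sum_const_zero, zero_add]
      simp only [gdiv, mul_sum, cofH_apply, hinv, mul_assoc]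
    rw [e2]
    simp only [etaDet, max_eq_left hη.le]
    exact div_lower hu hc hh h0 hε0 hε hy hη

omit hu hc hh h0

/-- `∫ η^m (det D²u)^q ≤ C h^(nq) |cap|^(1-2q)` on balanced caps, when the form is positive. -/
theorem cap_eta_det_le {q A B : ℝ} {m : ℕ} (hm : 3 ≤ m) (hq0 : 0 ≤ q) (hq1 : q ≤ 1)
    (hP : DetFormPos n q A B m) (hβ : 0 < β) :
    ∃ C : ℝ, 0 ≤ C ∧ ∀ {W : Set (Fin n → ℝ)} {u : (Fin n → ℝ) → ℝ}, AM W u → Convex ℝ W →
      ∀ x₀ p : Fin n → ℝ, ∀ h : ℝ, 0 < h → IsCap u x₀ p h β W →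
        ∫ y in capSet u x₀ p h W, etaDet u x₀ p h q m y ≤
          C * h ^ ((n : ℝ) * q) * (volume (capSet u x₀ p h W)).toReal ^ (1 - 2 * q) := by
  obtain ⟨k, rfl⟩ : ∃ k, m = k + 3 := ⟨m - 3, by omega⟩
  obtain ⟨ε, hε0, hε⟩ := hP
  set E : ℝ := 1 + β⁻¹ with hE
  have hE0 : 0 < E := by positivity
  set C₁ : ℝ := (2 * ε + |(n : ℝ) * ((k + 3 : ℕ) * A + B)|) / (2 * ε) with hC₁
  have hC₁0 : 0 < C₁ := by positivity
  set R : ℝ := 2 * C₁ * E with hRdef
  have hR0 : 0 < R := by positivity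
  set D : ℝ := polarConst n β * R ^ n + 1 with hD
  have hD0 : 0 ≤ D := by have := polarConst_nonneg n β; positivity
  refine ⟨E * (2 * C₁ * E ^ (k + 3)) * D, by positivity,
    fun {W u} hu hc x₀ p h hh hK => ?_⟩
  set S := capSet u x₀ p h W with hS
  set v := (volume S).toReal with hv
  have hW := hu.isOpen
  have hSW : S ⊆ W := fun y hy => hy.1
  have hSm : MeasurableSet S := hK.cpt.measurableSet
  have hfin : volume S ≠ ⊤ := hK.cpt.measure_lt_top.ne
  rcases eq_or_lt_of_le (show 0 ≤ v from ENNReal.toReal_nonneg) with hv0 | hv0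
  · have hz : volume S = 0 := by
      rcases (ENNReal.toReal_eq_zero_iff _).1 hv0.symm with hh' | hh'
      · exact hh'
      · exact absurd hh' hfin
    rw [setIntegral_measure_zero _ hz]
    positivity
  have hne : S.Nonempty := by
    by_contra he
    rw [Set.not_nonempty_iff_eq_empty] at he
    simp [v, he] at hv0
  have h0 : x₀ ∈ W := mem_center hc hβ hK hne.choose_spec
  obtain ⟨F, hFs, hF0, hFd⟩ := exists_ext (p := p) hu hc hh h0 hε0.le hε
  have hout : ∀ y ∈ W, y ∉ S → etaF u x₀ p h y < 0 := fun y hy hyS => by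
    have hlt : h < capFun u x₀ p y := lt_of_not_ge fun hle => hyS ⟨hy, hle⟩
    rw [etaF, sub_neg, one_lt_div hh]
    exact hlt
  have hψ1 : ∀ y ∈ W, 1 ≤ psiF u x₀ p h y := fun y hy => one_le_psiF hu hc hh hy h0
  have hwc : ∀ j : ℕ, ContinuousOn (etaDet u x₀ p h q j) W := fun j =>
    (((sm_etaF hu).continuousOn.sup continuousOn_const).pow j).mul
      ((sm_det (msm_hess hW hu.sm)).continuousOn.rpow_const fun y hy =>
        Or.inl (hu.det_pos hy).ne')
  have hw0 : ∀ j, j ≠ 0 → ∀ y ∈ W, y ∉ S → etaDet u x₀ p h q j y = 0 := fun j hj y hy hyS => by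
    simp [etaDet, max_eq_right (hout y hy hyS).le, zero_pow hj]
  set a := etaDet u x₀ p h q (k + 2) with ha
  set b : (Fin n → ℝ) → ℝ := fun y => etaDet u x₀ p h q (k + 3) y / psiF u x₀ p h y with hb
  have hbc : ContinuousOn b W :=
    (hwc _).div (sm_psiF hu).continuousOn fun y hy => by linarith [hψ1 y hy]
  have aI := integrableOn_of_vanish hW hK.cpt hSW (hwc (k + 2)) (hw0 _ (by omega))
  have bI := integrableOn_of_vanish hW hK.cpt hSW hbc fun y hy hyS => by
    simp [b, hw0 (k + 3) (by omega) y hy hyS]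
  have DI : IntegrableOn (fun y => ∑ i, pd i (F i) y) W := integrableOn_of_vanish hW hK.cpt hSW
    (continuousOn_finsetSum _ fun i _ => continuousOn_pd hW (hFs i) i)
    fun y hy hyS => Finset.sum_eq_zero fun i _ => pd_eq_zero_of_notMem hW hK.cpt
      (fun z hz hzS => hF0 i z hz (hout z hz hzS).le) i hy hyS
  have hdiv : ∫ y in W, ∑ i, pd i (F i) y = 0 := setIntegral_div_eq_zero hW hK.cpt hSW hFs
    fun i z hz hzS => hF0 i z hz (hout z hz hzS).le
  have h1 : ∫ y in S, a y ≤ C₁ * ∫ y in S, b y := by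
    have hI := setIntegral_mono_on ((aI.const_mul (2 * ε)).sub
      (bI.const_mul (2 * ε + |(n : ℝ) * ((k + 3 : ℕ) * A + B)|)) |>.const_mul h⁻¹) DI
      hW.measurableSet fun y hy => hFd y hy
    rw [hdiv] at hI
    simp only [Pi.sub_apply] at hI
    rw [integral_const_mul, integral_sub (aI.const_mul _) (bI.const_mul _), integral_const_mul,
      integral_const_mul] at hI
    rw [setIntegral_eq_of_subset_of_forall_sdiff_eq_zero hW.measurableSet hSW
        (fun y hy => hw0 (k + 2) (by omega) y hy.1 hy.2),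
      setIntegral_eq_of_subset_of_forall_sdiff_eq_zero hW.measurableSet hSW
        (fun y hy => by simp [b, hw0 (k + 3) (by omega) y hy.1 hy.2])] at hI
    have := nonpos_of_mul_nonpos_right hI (inv_pos.2 hh)
    rw [hC₁, div_mul_eq_mul_div, le_div_iff₀ (by positivity)]
    linarith
  set A' := S ∩ {y | psiF u x₀ p h y ≤ R} with hA'
  have hA'm : MeasurableSet A' :=
    (((sm_psiF hu).continuousOn.mono hSW).preimage_isClosed_of_isClosed hK.cpt.isClosed
      isClosed_Iic).measurableSet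
  have hA'S : A' ⊆ S := fun y hy => hy.1
  have hdc : ContinuousOn (fun y => (hess u y).det) S :=
    (sm_det (msm_hess hW hu.sm)).continuousOn.mono hSW
  have hqI : IntegrableOn (fun y => (hess u y).det ^ q) A' :=
    ((hdc.rpow_const fun y hy => Or.inl (hu.det_pos (hSW hy)).ne').integrableOn_compact
      hK.cpt).mono_set hA'S
  have hdI : IntegrableOn (fun y => (hess u y).det) A' :=
    (hdc.integrableOn_compact hK.cpt).mono_set hA'S
  have hηE : ∀ y ∈ S, max (etaF u x₀ p h y) 0 ≤ E := fun y hy =>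
    max_le (etaF_le hu hc hh hβ hK hy) hE0.le
  have hpt : ∀ y ∈ S, b y ≤ E / R * a y +
      E ^ (k + 3) * A'.indicator (fun z => (hess u z).det ^ q) y := by
    intro y hy
    have hψ := hψ1 y (hSW hy)
    have hdq := Real.rpow_nonneg (hu.det_pos (hSW hy)).le q
    have hm0 : 0 ≤ max (etaF u x₀ p h y) 0 := le_max_right _ _
    have hmd := mul_nonneg (pow_nonneg hm0 (k + 2)) hdq
    simp only [a, b, etaDet, pow_succ (max (etaF u x₀ p h y) 0) (k + 2)]
    by_cases hyA : y ∈ A'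
    · rw [Set.indicator_of_mem hyA]
      refine le_add_of_nonneg_of_le (mul_nonneg (by positivity) hmd) ?_
      rw [← pow_succ]
      exact (div_le_self (mul_nonneg (pow_nonneg hm0 _) hdq) hψ).trans
        (mul_le_mul_of_nonneg_right (pow_le_pow_left₀ hm0 (hηE y hy) _) hdq)
    · rw [Set.indicator_of_notMem hyA, mul_zero, add_zero, div_le_iff₀ (by linarith),
        div_mul_eq_mul_div, div_mul_eq_mul_div, le_div_iff₀ hR0]
      have hRψ : R ≤ psiF u x₀ p h y := (lt_of_not_ge fun hle => hyA ⟨hy, hle⟩).le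
      have := mul_le_mul (mul_le_mul_of_nonneg_left (hηE y hy) hmd) hRψ hR0.le
        (mul_nonneg hmd hE0.le)
      linarith
  have iI : IntegrableOn (A'.indicator fun z => (hess u z).det ^ q) S :=
    (((hdc.rpow_const fun y hy => Or.inl (hu.det_pos (hSW hy)).ne').integrableOn_compact
      hK.cpt).indicator hA'm)
  have h2 : ∫ y in S, b y ≤
      E / R * (∫ y in S, a y) + E ^ (k + 3) * ∫ y in A', (hess u y).det ^ q := by
    refine (setIntegral_mono_on (bI.mono_set hSW)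
      (((aI.mono_set hSW).const_mul _).add (iI.const_mul _)) hSm hpt).trans (le_of_eq ?_)
    rw [integral_add' ((aI.mono_set hSW).const_mul _) (iI.const_mul _), integral_const_mul,
      integral_const_mul, setIntegral_indicator hA'm, Set.inter_eq_right.2 hA'S]
  have h3 : ∫ y in S, a y ≤ 2 * C₁ * E ^ (k + 3) * ∫ y in A', (hess u y).det ^ q := by
    have e : C₁ * (E / R) = 1 / 2 := by rw [hRdef]; field_simp
    have := h1.trans (mul_le_mul_of_nonneg_left h2 hC₁0.le)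
    rw [mul_add, ← mul_assoc, e] at this
    linarith
  have h4 : ∫ y in S, etaDet u x₀ p h q (k + 3) y ≤ E * ∫ y in S, a y := by
    rw [← integral_const_mul]
    refine setIntegral_mono_on ((hwc _).mono hSW |>.integrableOn_compact hK.cpt)
      ((aI.mono_set hSW).const_mul _) hSm fun y hy => ?_
    simp only [a, etaDet, pow_succ (max (etaF u x₀ p h y) 0) (k + 2)]
    have hmd := mul_nonneg (pow_nonneg (le_max_right (etaF u x₀ p h y) 0) (k + 2))
      (Real.rpow_nonneg (hu.det_pos (hSW hy)).le q)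
    have := mul_le_mul_of_nonneg_left (hηE y hy) hmd
    linarith
  set t : ℝ := h ^ n / v ^ 2 with ht
  have ht0 : 0 < t := by positivity
  have h5 : ∫ y in A', (hess u y).det ^ q ≤ D * (h ^ ((n : ℝ) * q) * v ^ (1 - 2 * q)) := by
    have hamgm : ∀ y ∈ A', (hess u y).det ^ q ≤ t ^ (q - 1) * ((hess u y).det + t) := fun y hy => by
      have hd := hu.det_pos (hSW hy.1)
      have g := Real.geom_mean_le_arith_mean2_weighted (w₁ := q) (w₂ := 1 - q) hq0 (by linarith)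
        hd.le ht0.le (by ring)
      rw [show t ^ (q - 1) = (t ^ (1 - q))⁻¹ by rw [← Real.rpow_neg ht0.le, neg_sub],
        le_inv_mul_iff₀ (by positivity)]
      nlinarith
    have hA'fin : volume A' ≠ ⊤ := ((measure_mono hA'S).trans_lt hK.cpt.measure_lt_top).ne
    refine (setIntegral_mono_on hqI ((hdI.add (integrableOn_const hA'fin)).const_mul _) hA'm
      hamgm).trans ?_
    simp only [Pi.add_apply]
    rw [integral_const_mul, integral_add hdI (integrableOn_const hA'fin), setIntegral_const,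
      smul_eq_mul]
    have e1 : ∫ y in A', (hess u y).det ≤ polarConst n β * R ^ n * (h ^ n / v) := by
      have := setIntegral_det_le hu hc hh hβ hK hR0
      rw [mul_pow] at this
      rw [← mul_div_assoc, le_div_iff₀ hv0]
      linarith
    have e2 : volume.real A' * t ≤ 1 * (h ^ n / v) := by
      refine (mul_le_mul_of_nonneg_right (ENNReal.toReal_mono hfin (measure_mono hA'S))
        ht0.le).trans (le_of_eq ?_)
      rw [← hv, ht]
      field_simp
    have e3 : t ^ (q - 1) * (h ^ n / v) = h ^ ((n : ℝ) * q) * v ^ (1 - 2 * q) := by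
      rw [ht, div_eq_mul_inv (h ^ n) (v ^ 2), Real.mul_rpow (by positivity) (by positivity),
        ← Real.rpow_natCast h n, ← Real.rpow_mul hh.le, ← Real.rpow_natCast v 2,
        ← Real.rpow_neg hv0.le, ← Real.rpow_mul hv0.le, div_eq_mul_inv _ v, ← Real.rpow_neg_one v,
        mul_mul_mul_comm, ← Real.rpow_add hh, ← Real.rpow_add hv0]
      congr 2 <;> push_cast <;> ring
    calc t ^ (q - 1) * ((∫ y in A', (hess u y).det) + volume.real A' * t)
        ≤ t ^ (q - 1) * (D * (h ^ n / v)) := by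
          refine mul_le_mul_of_nonneg_left ?_ (by positivity)
          rw [hD, add_mul]
          linarith
      _ = _ := by rw [mul_left_comm, e3]
  calc ∫ y in S, etaDet u x₀ p h q (k + 3) y
      ≤ E * (2 * C₁ * E ^ (k + 3) * (D * (h ^ ((n : ℝ) * q) * v ^ (1 - 2 * q)))) :=
        h4.trans (mul_le_mul_of_nonneg_left
          (h3.trans (mul_le_mul_of_nonneg_left h5 (by positivity))) hE0.le)
    _ = _ := by ring

/-- Completing the squares. -/
lemma ldl_three {a b c x y z : ℝ} (ha : a ≠ 0) (hd : a * b - x ^ 2 ≠ 0) (s t r : ℝ) :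
    a * s ^ 2 + b * t ^ 2 + c * r ^ 2 + 2 * x * (s * t) + 2 * y * (s * r) + 2 * z * (t * r) =
      a * (s + x / a * t + y / a * r) ^ 2 +
        (a * b - x ^ 2) / a * (t + (a * z - x * y) / (a * b - x ^ 2) * r) ^ 2 +
        (a * (b * c - z ^ 2) - x * (x * c - z * y) + y * (x * z - b * y)) / (a * b - x ^ 2) *
          r ^ 2 := by
  rw [eq_comm, div_mul_eq_mul_div, div_mul_eq_mul_div, div_mul_eq_mul_div, div_mul_eq_mul_div,
    div_mul_eq_mul_div]
  field_simp
  ring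

/-- A bound for the change of variables that completes the squares. -/
lemma sq_sum_le {s t r U V α γ δ : ℝ} (es : s = U - α * V + δ * r) (et : t = V - γ * r) :
    s ^ 2 + t ^ 2 + r ^ 2 ≤
      (3 + (3 * α ^ 2 + 2) + (3 * δ ^ 2 + 2 * γ ^ 2 + 1)) * (U ^ 2 + V ^ 2 + r ^ 2) := by
  subst es et
  have s2 : (U - α * V + δ * r) ^ 2 ≤ 3 * (U ^ 2 + α ^ 2 * V ^ 2 + δ ^ 2 * r ^ 2) := by
    nlinarith [sq_nonneg (U + α * V), sq_nonneg (U - δ * r), sq_nonneg (α * V + δ * r)]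
  have t2 : (V - γ * r) ^ 2 ≤ 2 * (V ^ 2 + γ ^ 2 * r ^ 2) := by
    nlinarith [sq_nonneg (V + γ * r)]
  have key : (3 + (3 * α ^ 2 + 2) + (3 * δ ^ 2 + 2 * γ ^ 2 + 1)) * (U ^ 2 + V ^ 2 + r ^ 2) =
      3 * (U ^ 2 + α ^ 2 * V ^ 2 + δ ^ 2 * r ^ 2) + 2 * (V ^ 2 + γ ^ 2 * r ^ 2) + r ^ 2 +
        ((3 * α ^ 2 + 2 + (3 * δ ^ 2 + 2 * γ ^ 2 + 1)) * U ^ 2 +
          (3 + (3 * δ ^ 2 + 2 * γ ^ 2 + 1)) * V ^ 2 + (3 + (3 * α ^ 2 + 2)) * r ^ 2) := by ring
  have : 0 ≤ (3 * α ^ 2 + 2 + (3 * δ ^ 2 + 2 * γ ^ 2 + 1)) * U ^ 2 +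
      (3 + (3 * δ ^ 2 + 2 * γ ^ 2 + 1)) * V ^ 2 + (3 + (3 * α ^ 2 + 2)) * r ^ 2 := by positivity
  linarith

/-- Sylvester's criterion for the form. -/
theorem detFormPos_of_minors {q A B : ℝ} {m : ℕ} {a b c x y z : ℝ}
    (ha : a = q - 1 / ((n : ℝ) + 2)) (hb : b = A * (1 - 1 / (m : ℝ))) (hc : c = B)
    (hx : x = -(1 + (q - 1) * A) / 2) (hy : y = -B * q / 2) (hz : z = (B - n * A) / 2)
    (h1 : 0 < a) (h2 : 0 < a * b - x ^ 2)
    (h3 : 0 < a * (b * c - z ^ 2) - x * (x * c - z * y) + y * (x * z - b * y)) :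
    DetFormPos n q A B m := by
  set d := a * b - x ^ 2
  set e := a * (b * c - z ^ 2) - x * (x * c - z * y) + y * (x * z - b * y)
  set α := x / a
  set β := y / a
  set γ := (a * z - x * y) / d
  set K := 3 + (3 * α ^ 2 + 2) + (3 * (α * γ - β) ^ 2 + 2 * γ ^ 2 + 1) with hK
  set ε := min a (min (d / a) (e / d))
  have hK0 : 0 < K := by positivity
  have hε : 0 < ε := lt_min h1 (lt_min (div_pos h2 h1) (div_pos h3 h2))
  refine ⟨ε / K, by positivity, fun s t r => ?_⟩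
  have key : detForm n q A B m s t r =
      a * (s + α * t + β * r) ^ 2 + d / a * (t + γ * r) ^ 2 + e / d * r ^ 2 := by
    have e0 : detForm n q A B m s t r = a * s ^ 2 + b * t ^ 2 + c * r ^ 2 +
        2 * x * (s * t) + 2 * y * (s * r) + 2 * z * (t * r) := by
      subst ha hb hc hx hy hz; simp only [detForm]; ring
    rw [e0]
    exact ldl_three h1.ne' h2.ne' s t r
  have hup : s ^ 2 + t ^ 2 + r ^ 2 ≤
      K * ((s + α * t + β * r) ^ 2 + (t + γ * r) ^ 2 + r ^ 2) := by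
    refine (sq_sum_le (U := s + α * t + β * r) (V := t + γ * r) (α := α) (γ := γ)
      (δ := α * γ - β) (r := r) (by ring) (by ring)).trans (le_of_eq ?_)
    rw [hK]
  calc ε / K * (s ^ 2 + t ^ 2 + r ^ 2)
      ≤ ε / K * (K * ((s + α * t + β * r) ^ 2 + (t + γ * r) ^ 2 + r ^ 2)) :=
        mul_le_mul_of_nonneg_left hup (by positivity)
    _ = ε * (s + α * t + β * r) ^ 2 + ε * (t + γ * r) ^ 2 + ε * r ^ 2 := by field_simp
    _ ≤ _ := by
      rw [key]
      exact add_le_add (add_le_add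
        (mul_le_mul_of_nonneg_right (min_le_left _ _) (sq_nonneg _))
        (mul_le_mul_of_nonneg_right ((min_le_right _ _).trans (min_le_left _ _)) (sq_nonneg _)))
        (mul_le_mul_of_nonneg_right ((min_le_right _ _).trans (min_le_right _ _)) (sq_nonneg _))

/-- The mass of balanced caps, when the form is positive definite. -/
theorem massBound_of_detFormPos {q A B : ℝ} {m : ℕ} (hm : 3 ≤ m) (hq0 : 0 ≤ q) (hq1 : q ≤ 1)
    (hP : DetFormPos n q A B m) (hβ : 0 < β) : MassBound n β m q := by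
  obtain ⟨C, hC, hI⟩ := cap_eta_det_le (n := n) hm hq0 hq1 hP hβ
  exact ⟨C, hC, fun hu hc x₀ _ p h hh hK => hI hu hc x₀ p h hh hK⟩

/-- The form grows with the exponent of the cutoff. -/
lemma DetFormPos.mono {q A B : ℝ} {m m' : ℕ} (hA : 0 ≤ A) (h0 : 0 < m) (hmm : m ≤ m')
    (hP : DetFormPos n q A B m) : DetFormPos n q A B m' := by
  obtain ⟨ε, hε, hI⟩ := hP
  refine ⟨ε, hε, fun s t r => (hI s t r).trans ?_⟩
  have h1 : (1 : ℝ) / (m' : ℝ) ≤ 1 / (m : ℝ) :=
    one_div_le_one_div_of_le (Nat.cast_pos.2 h0) (Nat.cast_le.2 hmm)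
  have := mul_le_mul_of_nonneg_right (mul_le_mul_of_nonneg_left h1 hA) (sq_nonneg t)
  simp only [detForm]
  linarith

end

end Vale.Agent.P252.General.Mass
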